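import Vale.Agent.Lib.P170B.Model
import Vale.Agent.Lib.P170.Defs

/-!
# P170: the law of the random clause process, comparison with counting
-/

namespace Vale.Agent.P170B

open MeasureTheory ProbabilityTheory Vale.Agent.P170

theorem clause_ext {k n : ℕ} {D D' : Clause k n} (h : D.vars = D'.vars)
    (h2 : ∀ (v : Fin n) (hv : v ∈ D.vars) (hv' : v ∈ D'.vars), D.sign ⟨v, hv⟩ = D'.sign ⟨v, hv'⟩) :
    D = D' := by
  obtain ⟨S, hS, s⟩ := D
  obtain ⟨S', hS', s'⟩ := D'
  have h' : S = S' := h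
  subst h'
  have : s = s' := funext fun v => h2 v.1 v.2 v.2
  rw [this]

/-- the set of literals of a clause -/
def lits {k n : ℕ} (D : Clause k n) : Finset (Fin n × Bool) :=
  D.vars.attach.image fun v => (v.1, D.sign v)

theorem mem_lits {k n : ℕ} (D : Clause k n) (l : Fin n × Bool) :
    l ∈ lits D ↔ ∃ h : l.1 ∈ D.vars, D.sign ⟨l.1, h⟩ = l.2 := by
  unfold lits
  rw [Finset.mem_image]
  constructor
  · rintro ⟨v, -, rfl⟩
    exact ⟨v.2, rfl⟩
  · rintro ⟨h, h2⟩
    exact ⟨⟨l.1, h⟩, Finset.mem_attach _ _, Prod.ext rfl h2⟩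

theorem lits_proper {k n : ℕ} (D : Clause k n) :
    (lits D).card = k ∧ Set.InjOn Prod.fst (lits D : Set (Fin n × Bool)) := by
  constructor
  · unfold lits
    rw [Finset.card_image_of_injective _ (fun v w h => Subtype.ext (Prod.ext_iff.1 h).1),
      Finset.card_attach, D.card_vars]
  · intro l hl l' hl' h
    obtain ⟨h1, h2⟩ := (mem_lits D l).1 hl
    obtain ⟨h3, h4⟩ := (mem_lits D l').1 hl'
    obtain ⟨a, b⟩ := l
    obtain ⟨a', b'⟩ := l'
    have h' : a = a' := h
    subst h'
    exact Prod.ext rfl (h2.symm.trans h4)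

/-- the translation to the encoding by sets of literals -/
def toProper {k n : ℕ} (D : Clause k n) : ProperClause k n := ⟨lits D, lits_proper D⟩

theorem toProper_inj {k n : ℕ} : Function.Injective (toProper (k := k) (n := n)) := by
  intro D D' h
  have h1 : lits D = lits D' := congrArg Subtype.val h
  have h2 : ∀ l, l ∈ lits D ↔ l ∈ lits D' := fun l => by rw [h1]
  refine clause_ext ?_ ?_
  · ext v
    constructor
    · intro hv
      obtain ⟨h3, -⟩ := (mem_lits D' (v, D.sign ⟨v, hv⟩)).1 ((h2 _).1 ((mem_lits D _).2 ⟨hv, rfl⟩))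
      exact h3
    · intro hv
      obtain ⟨h3, -⟩ := (mem_lits D (v, D'.sign ⟨v, hv⟩)).1
        ((h2 _).2 ((mem_lits D' _).2 ⟨hv, rfl⟩))
      exact h3
  · intro v hv hv'
    obtain ⟨h3, h4⟩ := (mem_lits D' (v, D.sign ⟨v, hv⟩)).1 ((h2 _).1 ((mem_lits D _).2 ⟨hv, rfl⟩))
    exact h4.symm

theorem toProper_surj {k n : ℕ} : Function.Surjective (toProper (k := k) (n := n)) := by
  rintro ⟨L, hL, hinj⟩
  have hc : (L.image Prod.fst).card = k := by
    rw [Finset.card_image_of_injOn hinj, hL]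
  refine ⟨⟨L.image Prod.fst, hc, fun v => decide ((v.1, true) ∈ L)⟩, Subtype.ext ?_⟩
  show lits _ = L
  ext ⟨v, b⟩
  rw [mem_lits]
  constructor
  · rintro ⟨h1, h2⟩
    have h2' : decide ((v, true) ∈ L) = b := h2
    have h1' : v ∈ L.image Prod.fst := h1
    obtain ⟨⟨v', b'⟩, h3, h4⟩ := Finset.mem_image.1 h1'
    have h4' : v' = v := h4
    subst h4'
    cases b with
    | true => exact of_decide_eq_true h2'
    | false =>
      have h5 := of_decide_eq_false h2'
      cases b' with
      | true => exact absurd h3 h5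
      | false => exact h3
  · intro h
    refine ⟨Finset.mem_image.2 ⟨(v, b), h, rfl⟩, ?_⟩
    show decide ((v, true) ∈ L) = b
    cases b with
    | true => exact decide_eq_true h
    | false =>
      refine decide_eq_false fun h' => ?_
      have := hinj (Finset.mem_coe.2 h) (Finset.mem_coe.2 h') rfl
      exact absurd (Prod.ext_iff.1 this).2 Bool.false_ne_true

/-- the two encodings are in bijection -/
noncomputable def equivProper (k n : ℕ) : Clause k n ≃ ProperClause k n :=
  Equiv.ofBijective toProper ⟨toProper_inj, toProper_surj⟩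

theorem holds_iff {k n : ℕ} (D : Clause k n) (σ : Fin n → Bool) :
    D.Holds σ ↔ Satisfies σ (equivProper k n D).1 := by
  show (∃ v : D.vars, σ v = D.sign v) ↔ ∃ l ∈ lits D, σ l.1 = l.2
  constructor
  · rintro ⟨v, hv⟩
    exact ⟨(v.1, D.sign v), (mem_lits D _).2 ⟨v.2, rfl⟩, hv⟩
  · rintro ⟨l, hl, h⟩
    obtain ⟨h1, h2⟩ := (mem_lits D l).1 hl
    exact ⟨⟨l.1, h1⟩, h.trans h2.symm⟩

/-- clauses as pairs -/
def equivSigma (k n : ℕ) :
    Clause k n ≃ Σ S : {S : Finset (Fin n) // S.card = k}, (S.1 → Bool) where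
  toFun D := ⟨⟨D.vars, D.card_vars⟩, D.sign⟩
  invFun p := ⟨p.1.1, p.1.2, p.2⟩
  left_inv _ := rfl
  right_inv _ := rfl

instance (k n : ℕ) : Finite (Clause k n) := Finite.of_equiv _ (equivSigma k n).symm

theorem card_clause (k n : ℕ) : Nat.card (Clause k n) = 2 ^ k * n.choose k := by
  classical
  rw [Nat.card_congr (equivSigma k n), Nat.card_sigma]
  have h1 : ∀ S : {S : Finset (Fin n) // S.card = k}, Nat.card (S.1 → Bool) = 2 ^ k := fun S => by
    rw [Nat.card_fun, Nat.card_eq_fintype_card, Nat.card_eq_fintype_card, Fintype.card_bool,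
      Fintype.card_coe, S.2]
  rw [Finset.sum_congr rfl fun S _ => h1 S, Finset.sum_const, Finset.card_univ, smul_eq_mul,
    mul_comm]
  congr 1
  rw [Fintype.card_finset_len, Fintype.card_fin]

theorem satProb_eq (k n m : ℕ) : satProb k n m =
    (Nat.card {F : Fin m → Clause k n // ∃ σ : Fin n → Bool, ∀ i, (F i).Holds σ} : ℝ) /
      ((2 ^ k * n.choose k : ℕ) : ℝ) ^ m := by
  unfold satProb
  rw [← Nat.card_congr (equivProper k n), card_clause]
  congr 2
  refine (Nat.card_congr (Equiv.subtypeEquiv ((Equiv.refl (Fin m)).arrowCongr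
    (equivProper k n)) fun F => ?_)).symm
  unfold Satisfiable
  simp only [holds_iff]
  rfl

end Vale.Agent.P170B
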