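import Vale.Agent.Lib.P170B.Law

/-!
# P170: probability of satisfiability in the random model, existence of the model
-/

namespace Vale.Agent.P170B

open MeasureTheory ProbabilityTheory Vale.Agent.P170 Filter Topology

section law

variable {k n : ℕ} {Ω : Type} [MeasurableSpace Ω] {P : Measure Ω} {C : ℕ → Ω → Clause k n}

theorem fiber_meas (h : IsClauseProcess P C) (m : ℕ) (F : Fin m → Clause k n) :
    MeasurableSet ((fun ω (i : Fin m) => C i ω) ⁻¹' {F}) := by
  have h1 : (fun ω (i : Fin m) => C i ω) ⁻¹' {F} = ⋂ i : Fin m, {ω | C i ω = F i} := by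
    ext ω
    simp only [Set.mem_preimage, Set.mem_singleton_iff, Set.mem_iInter, Set.mem_ofPred_eq]
    exact funext_iff
  rw [h1]
  exact MeasurableSet.iInter fun i => h.meas i (F i)

theorem fiber_prob (h : IsClauseProcess P C) (m : ℕ) (F : Fin m → Clause k n) :
    P ((fun ω (i : Fin m) => C i ω) ⁻¹' {F}) = ((((2 ^ k * n.choose k : ℕ) : ENNReal))⁻¹) ^ m := by
  classical
  have h1 : (fun ω (i : Fin m) => C i ω) ⁻¹' {F} = ⋂ i ∈ Finset.range m,
      C i ⁻¹' {D | ∀ hi : i < m, D = F ⟨i, hi⟩} := by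
    ext ω
    simp only [Set.mem_preimage, Set.mem_singleton_iff, Set.mem_iInter, Set.mem_ofPred_eq,
      Finset.mem_range]
    constructor
    · intro h2 i hi _
      exact congrFun h2 ⟨i, hi⟩
    · intro h2
      exact funext fun i => h2 i.1 i.2 i.2
  have h2 := h.indep.measure_inter_preimage_eq_mul (Finset.range m)
    (sets := fun i => {D | ∀ hi : i < m, D = F ⟨i, hi⟩}) (fun i _ => trivial)
  rw [h1]
  refine h2.trans ?_
  have h3 : ∀ i ∈ Finset.range m, P (C i ⁻¹' {D | ∀ hi : i < m, D = F ⟨i, hi⟩}) =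
      (((2 ^ k * n.choose k : ℕ) : ENNReal))⁻¹ := fun i hi => by
    have hi' := Finset.mem_range.1 hi
    rw [← h.unif i (F ⟨i, hi'⟩)]
    congr 1
    ext ω
    simp only [Set.mem_preimage, Set.mem_ofPred_eq]
    exact ⟨fun h4 => h4 hi', fun h4 _ => h4⟩
  rw [Finset.prod_congr rfl h3, Finset.prod_const, Finset.card_range]

theorem prob_sat (h : IsClauseProcess P C) (m : ℕ) : P.real (satEvent C m) = satProb k n m := by
  classical
  have hfin : Set.Finite {F : Fin m → Clause k n | ∃ σ : Fin n → Bool, ∀ i, (F i).Holds σ} :=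
    Set.toFinite _
  have h1 : satEvent C m = (fun ω (i : Fin m) => C i ω) ⁻¹' (hfin.toFinset : Set _) := by
    ext ω
    rw [Set.Finite.coe_toFinset]
    show (∃ σ : Fin n → Bool, ∀ i < m, (C i ω).Holds σ) ↔
      ∃ σ : Fin n → Bool, ∀ i : Fin m, (C i ω).Holds σ
    exact exists_congr fun σ => ⟨fun h2 i => h2 i.1 i.2, fun h2 i hi => h2 ⟨i, hi⟩⟩
  have h2 : P (satEvent C m) = hfin.toFinset.card *
      ((((2 ^ k * n.choose k : ℕ) : ENNReal))⁻¹) ^ m := by
    rw [h1, ← sum_measure_preimage_singleton _ fun F _ => fiber_meas h m F,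
      Finset.sum_congr rfl fun F _ => fiber_prob h m F, Finset.sum_const, nsmul_eq_mul]
  have h3 : Nat.card {F : Fin m → Clause k n // ∃ σ : Fin n → Bool, ∀ i, (F i).Holds σ} =
      hfin.toFinset.card := Nat.card_eq_card_finite_toFinset hfin
  rw [satProb_eq, h3, measureReal_def, h2, ENNReal.toReal_mul, ENNReal.toReal_pow,
    ENNReal.toReal_inv, ENNReal.toReal_natCast, ENNReal.toReal_natCast, inv_pow, div_eq_mul_inv]

theorem sat_antitone (h : IsClauseProcess P C) {m m' : ℕ} (hm : m ≤ m') :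
    P.real (satEvent C m') ≤ P.real (satEvent C m) := by
  have hf : IsFiniteMeasure P := ⟨by rw [h.prob]; exact ENNReal.one_lt_top⟩
  exact measureReal_mono fun ω ⟨σ, hσ⟩ => ⟨σ, fun i hi => hσ i (hi.trans_le hm)⟩

end law

/-- the model exists -/
theorem exists_process (k n : ℕ) (hkn : k ≤ n) : ∃ (Ω : Type) (_ : MeasurableSpace Ω)
    (P : Measure Ω) (C : ℕ → Ω → Clause k n), IsClauseProcess P C := by
  classical
  have : Fintype (Clause k n) := Fintype.ofFinite _
  have hcard : Fintype.card (Clause k n) = 2 ^ k * n.choose k := by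
    rw [← Nat.card_eq_fintype_card, card_clause]
  have hpos : 0 < 2 ^ k * n.choose k := Nat.mul_pos (by positivity) (Nat.choose_pos hkn)
  have hne : Nonempty (Clause k n) := Fintype.card_pos_iff.1 (by rw [hcard]; exact hpos)
  let mC : MeasurableSpace (Clause k n) := ⊤
  have hd : DiscreteMeasurableSpace (Clause k n) := ⟨fun _ => trivial⟩
  let μ : Measure (Clause k n) := (PMF.uniformOfFintype (Clause k n)).toMeasure
  have hμ : IsProbabilityMeasure μ := PMF.toMeasure.isProbabilityMeasure _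
  refine ⟨ℕ → Clause k n, inferInstance, Measure.infinitePi fun _ : ℕ => μ, fun i ω => ω i,
    ⟨measure_univ, fun i D => ?_, ?_, fun i D => ?_⟩⟩
  · have h1 : Measurable fun ω : ℕ → Clause k n => ω i := measurable_pi_apply i
    exact h1 (measurableSet_singleton D)
  · exact iIndepFun_infinitePi (X := fun _ D => D) fun _ => measurable_id
  · have h1 : (Measure.infinitePi fun _ : ℕ => μ).map (fun ω => ω i) = μ :=
      Measure.infinitePi_map_eval _ i
    have h2 : (Measure.infinitePi fun _ : ℕ => μ) {ω | ω i = D} = μ {D} := by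
      rw [← h1, Measure.map_apply (measurable_pi_apply i) (measurableSet_singleton D), h1]
      rfl
    rw [h2]
    show (PMF.uniformOfFintype (Clause k n)).toMeasure {D} = _
    rw [PMF.toMeasure_apply_singleton _ _ (measurableSet_singleton D),
      PMF.uniformOfFintype_apply, hcard]

section limits

variable {k : ℕ} {Ω : ℕ → Type} {mΩ : ∀ n, MeasurableSpace (Ω n)} {P : ∀ n, Measure (Ω n)}
  {C : ∀ n, ℕ → Ω n → Clause k n}

theorem limits_of (h : ∀ n, k ≤ n → IsClauseProcess (P n) (C n)) {α : ℝ}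
    (hα : HasLimitingThreshold k α) :
    (∀ c : ℝ, 0 ≤ c → c < α →
      Tendsto (fun n : ℕ => (P n).real (satEvent (C n) ⌊c * n⌋₊)) atTop (𝓝 1)) ∧
    (∀ c : ℝ, α < c →
      Tendsto (fun n : ℕ => (P n).real (satEvent (C n) ⌊c * n⌋₊)) atTop (𝓝 0)) := by
  have h1 : ∀ c : ℝ, (fun n : ℕ => satProb k n ⌊c * n⌋₊) =ᶠ[atTop]
      fun n : ℕ => (P n).real (satEvent (C n) ⌊c * n⌋₊) := fun c => by
    filter_upwards [eventually_ge_atTop k] with n hn
    exact (prob_sat (h n hn) _).symm
  exact ⟨fun c hc0 hc => (hα.2.1 c hc0 hc).congr' (h1 c), fun c hc => (hα.2.2 c hc).congr' (h1 c)⟩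

theorem friedgut_limit (h : ∀ n, k ≤ n → IsClauseProcess (P n) (C n)) {α : ℝ} (hα : 0 < α)
    (h1 : ∀ c : ℝ, 0 ≤ c → c < α →
      Tendsto (fun n : ℕ => (P n).real (satEvent (C n) ⌊c * n⌋₊)) atTop (𝓝 1))
    (h0 : ∀ c : ℝ, α < c →
      Tendsto (fun n : ℕ => (P n).real (satEvent (C n) ⌊c * n⌋₊)) atTop (𝓝 0))
    (r : ℕ → ℝ) (hr : ∀ ε : ℝ, 0 < ε →
      Tendsto (fun n : ℕ => (P n).real (satEvent (C n) ⌊(r n - ε) * n⌋₊)) atTop (𝓝 1) ∧
      Tendsto (fun n : ℕ => (P n).real (satEvent (C n) ⌊(r n + ε) * n⌋₊)) atTop (𝓝 0)) :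
    Tendsto r atTop (𝓝 α) := by
  refine tendsto_order.2 ⟨fun a ha => ?_, fun a ha => ?_⟩
  · have hc0 : 0 ≤ max 0 ((a + α) / 2) := le_max_left _ _
    have hc1 : max 0 ((a + α) / 2) < α := max_lt hα (by linarith)
    have hε : 0 < (α - a) / 2 := by linarith
    filter_upwards [(h1 _ hc0 hc1).eventually_const_lt (show (1 / 2 : ℝ) < 1 by norm_num),
      (hr _ hε).2.eventually_lt_const (show (0 : ℝ) < 1 / 2 by norm_num),
      eventually_ge_atTop k] with n hn1 hn2 hn3
    by_contra hc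
    have h3 : (r n + (α - a) / 2) * n ≤ max 0 ((a + α) / 2) * n := by
      refine mul_le_mul_of_nonneg_right ?_ (Nat.cast_nonneg n)
      exact le_trans (by linarith [not_lt.1 hc]) (le_max_right _ _)
    have h4 := sat_antitone (h n hn3) (Nat.floor_le_floor h3)
    linarith
  · have hc1 : α < (a + α) / 2 := by linarith
    have hε : 0 < (a - α) / 2 := by linarith
    filter_upwards [(h0 _ hc1).eventually_lt_const (show (0 : ℝ) < 1 / 2 by norm_num),
      (hr _ hε).1.eventually_const_lt (show (1 / 2 : ℝ) < 1 by norm_num),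
      eventually_ge_atTop k] with n hn1 hn2 hn3
    by_contra hc
    have h3 : (a + α) / 2 * n ≤ (r n - (a - α) / 2) * n := by
      refine mul_le_mul_of_nonneg_right ?_ (Nat.cast_nonneg n)
      linarith [not_lt.1 hc]
    have h4 := sat_antitone (h n hn3) (Nat.floor_le_floor h3)
    linarith

end limits

end Vale.Agent.P170B
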