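import Mathlib

/-!
# P170: the random clause process (definitions)
-/

namespace Vale.Agent.P170B

open MeasureTheory ProbabilityTheory

/-- A proper `k`-clause on the variables `x_0, …, x_{n-1}`: a set of `k` variables and a sign for
each of them.  The literal on the variable `v` is `x_v` if `sign v = true` and its negation if
`sign v = false`. -/
structure Clause (k n : ℕ) where
  /-- the variables of the clause -/
  vars : Finset (Fin n)
  card_vars : vars.card = k
  /-- the signs -/
  sign : vars → Bool

/-- the assignment `σ` makes at least one literal of the clause true -/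
def Clause.Holds {k n : ℕ} (D : Clause k n) (σ : Fin n → Bool) : Prop :=
  ∃ v : D.vars, σ v = D.sign v

/-- `C 0, C 1, …` are independent random proper `k`-clauses on `n` variables, defined on the
probability space `(Ω, P)`, and each of them is uniform over the `2 ^ k * n.choose k` proper
`k`-clauses. -/
structure IsClauseProcess {k n : ℕ} {Ω : Type} [MeasurableSpace Ω] (P : Measure Ω)
    (C : ℕ → Ω → Clause k n) : Prop where
  prob : P Set.univ = 1
  meas : ∀ i, ∀ D : Clause k n, MeasurableSet {ω | C i ω = D}
  indep : iIndepFun (m := fun _ => (⊤ : MeasurableSpace (Clause k n))) C P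
  unif : ∀ i, ∀ D : Clause k n, P {ω | C i ω = D} = (((2 ^ k * n.choose k : ℕ) : ENNReal))⁻¹

/-- the event that `F = C 0 ∧ … ∧ C (m-1)` is satisfiable -/
def satEvent {k n : ℕ} {Ω : Type} (C : ℕ → Ω → Clause k n) (m : ℕ) : Set Ω :=
  {ω | ∃ σ : Fin n → Bool, ∀ i < m, (C i ω).Holds σ}

end Vale.Agent.P170B
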